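import Vale.Agent.P274.Z.VarDefs
import Vale.Agent.P274.BSDDefs

/-! Semianalytic sets, smooth points and peak points: definitions. -/

open Set

namespace Vale.Agent.P274

/-- Finite Boolean combinations, inside the open set `W` of `ℂ^n`, of the sets
`{z ∈ W | 0 < f z}` with `f : W → ℝ` real-analytic. -/
inductive IsAnalyticCombination {n : ℕ} (W : Set (EuclideanSpace ℂ (Fin n))) :
    Set (EuclideanSpace ℂ (Fin n)) → Prop
  | pos (f : EuclideanSpace ℂ (Fin n) → ℝ) :
      AnalyticOnNhd ℝ f W → IsAnalyticCombination W {z | z ∈ W ∧ 0 < f z}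
  | compl {S : Set (EuclideanSpace ℂ (Fin n))} :
      IsAnalyticCombination W S → IsAnalyticCombination W (W \ S)
  | inter {S T : Set (EuclideanSpace ℂ (Fin n))} :
      IsAnalyticCombination W S → IsAnalyticCombination W T → IsAnalyticCombination W (S ∩ T)

/-- `U` is semianalytic at the point `x`: inside some open neighbourhood `W` of `x` it is a finite
Boolean combination of sets defined by real-analytic inequalities. -/
def IsSemianalyticAt {n : ℕ} (U : Set (EuclideanSpace ℂ (Fin n)))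
    (x : EuclideanSpace ℂ (Fin n)) : Prop :=
  ∃ W : Set (EuclideanSpace ℂ (Fin n)), IsOpen W ∧ x ∈ W ∧ IsAnalyticCombination W (U ∩ W)

/-- `U` is a semianalytic subset of `ℂ^n`. -/
def IsSemianalytic {n : ℕ} (U : Set (EuclideanSpace ℂ (Fin n))) : Prop :=
  ∀ x, IsSemianalyticAt U x

/-- `q` is a smooth point of the subset `V` of `ℂ^n`: near `q` the set `V` is biholomorphic to an
open subset of some `ℂ^m`. -/
def IsSmoothAt {n : ℕ} (V : Set (EuclideanSpace ℂ (Fin n))) (q : EuclideanSpace ℂ (Fin n)) :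
    Prop :=
  ∃ W : Set (EuclideanSpace ℂ (Fin n)), IsOpen W ∧ q ∈ W ∧
    ∃ (m : ℕ) (B : Set (EuclideanSpace ℂ (Fin m))), IsOpen B ∧ Z.Bihol (V ∩ W) B

/-- `q` is a local peak point of `U`: near `q` there is a holomorphic function `P` of the ambient
space with `P q = 0` and `Re P z ≥ c |z - q|²` on `U`, `c > 0`. -/
def IsPeakAt {n : ℕ} (U : Set (EuclideanSpace ℂ (Fin n))) (q : EuclideanSpace ℂ (Fin n)) :
    Prop :=
  ∃ W : Set (EuclideanSpace ℂ (Fin n)), IsOpen W ∧ q ∈ W ∧
    ∃ P : EuclideanSpace ℂ (Fin n) → ℂ, DifferentiableOn ℂ P W ∧ P q = 0 ∧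
      ∃ c : ℝ, 0 < c ∧ ∀ z ∈ U ∩ W, c * ‖z - q‖ ^ 2 ≤ (P z).re

/-- `U` is biholomorphic to a bounded symmetric domain. -/
def HasSymmetricModel {N : ℕ} (U : Set (EuclideanSpace ℂ (Fin N))) : Prop :=
  ∃ (n : ℕ) (D : Set (EuclideanSpace ℂ (Fin n))), IsBoundedSymmetricDomain D ∧ Z.Bihol U D

/-- `U` is biholomorphic to a bounded open subset and to a convex open subset of some `ℂ^n`. -/
def HasConvexModel {N : ℕ} (U : Set (EuclideanSpace ℂ (Fin N))) : Prop :=
  ∃ (n : ℕ) (B V : Set (EuclideanSpace ℂ (Fin n))), IsOpen B ∧ Bornology.IsBounded B ∧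
    IsOpen V ∧ Convex ℝ V ∧ Z.Bihol U B ∧ Z.Bihol U V

end Vale.Agent.P274
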