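import Vale.Agent.P274.H959.Main

/-! The local theorem and its consequences. -/

open Filter Metric Set Topology

namespace Vale.Agent.P274.H959

open Vale.Agent.P274 Vale.Agent.P274.Z

/-- The conclusion of the scaling argument: `U` is a point, or biholomorphic to a bounded domain
and to a convex Siegel domain. -/
def Scaled {N : ℕ} (U : Set (EuclideanSpace ℂ (Fin N))) : Prop :=
  (∃ U1 : Set (EuclideanSpace ℂ (Fin 0)), U1 = univ ∧ Bihol U U1) ∨
    ∃ (n : ℕ) (U1 : Set (EuclideanSpace ℂ (Fin n))), 0 < n ∧ IsOpen U1 ∧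
      Bornology.IsBounded U1 ∧ Bihol U U1 ∧
      ∃ (k : ℕ) (D : EuclideanSpace ℂ (Fin n) →L[ℝ] (Fin k → ℝ))
      (B : EuclideanSpace ℂ (Fin n) →L[ℝ] EuclideanSpace ℂ (Fin n) →L[ℝ] (Fin k → ℝ))
      (σ : (Fin k → ℂ) →L[ℂ] EuclideanSpace ℂ (Fin n)) (Ω : Set (Fin k → ℝ)),
      (∀ w, Lam D (σ w) = w) ∧
      IsOpen Ω ∧ IsPreconnected Ω ∧ Ω.Nonempty ∧ (∀ t : ℝ, 0 < t → ∀ ρ ∈ Ω, t • ρ ∈ Ω) ∧
      Biholomorphic U1 {y | D y + Lev B (prj D σ y) ∈ Ω} ∧
      Convex ℝ {y | D y + Lev B (prj D σ y) ∈ Ω}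

theorem scaled_of_singleton {N : ℕ} {U : Set (EuclideanSpace ℂ (Fin N))}
    {u : EuclideanSpace ℂ (Fin N)} (h1 : U = {u}) : Scaled U := by
  left
  have hu : u ∈ U := by rw [h1]; exact mem_singleton u
  refine ⟨univ, rfl, fun _ => 0, fun _ => u, ?_, ?_, fun _ _ => mem_univ _, fun _ _ => hu,
    fun x hx => ?_, fun y _ => Subsingleton.elim _ _⟩
  · exact HolOn.of_diffOn isOpen_univ (subset_univ _) (differentiableOn_const _)
  · exact HolOn.of_diffOn isOpen_univ (subset_univ _) (differentiableOn_const _)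
  · rw [h1, mem_singleton_iff] at hx
    exact hx.symm

/-- The local theorem: one boundary point which is a smooth point of the variety, a peak point
of `U` and a point at which `U` is semianalytic suffices. -/
theorem local_scaled {N : ℕ} (I : Set (MvPolynomial (Fin N) ℂ))
    {U O K : Set (EuclideanSpace ℂ (Fin N))} (hO : IsOpen O) (hU : U = zeroSet I ∩ O)
    (hUc : IsConnected U) (hb : Bornology.IsBounded U)
    (hK : IsCompact K) (hKU : K ⊆ U) (hco : CocompactHol U K)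
    {q : EuclideanSpace ℂ (Fin N)} (hq : q ∈ closure U) {n : ℕ}
    (hman : ManPt (EuclideanSpace ℂ (Fin n)) (zeroSet I) q) (hpk : IsPeakAt U q)
    (hsa : IsSemianalyticAt U q) : Scaled U := by
  have hUS := uset_of_algebraic I hO hU hUc.isPreconnected hb hK hKU hco
  have hUZ : U ⊆ zeroSet I := by
    rw [hU]
    exact inter_subset_left
  rcases Nat.eq_zero_or_pos n with rfl | hn
  · -- dimension zero
    obtain ⟨σ, π, W, hp, hσ⟩ := hman
    have hqW : q ∈ W := by
      rw [← hσ]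
      exact (hp.mapsσ (mem_ball_self one_pos)).2
    obtain ⟨u, huW, huU⟩ := mem_closure_iff_nhds.1 hq W (hp.isOpen.mem_nhds hqW)
    have huq : u = q := by
      rw [← hp.right u ⟨hUZ huU, huW⟩, ← hσ]
      congr 1
      exact Subsingleton.elim _ _
    subst huq
    exact scaled_of_singleton (eq_singleton_of_manPt hO hU hUc.isPreconnected huU
      ⟨σ, π, W, hp, hσ⟩)
  · right
    have hnt : Nontrivial (EuclideanSpace ℂ (Fin n)) := by
      have : Nonempty (Fin n) := ⟨⟨0, hn⟩⟩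
      infer_instance
    obtain ⟨W1, hW1, hqW1, P, hP, hPq, c, hc, hPle⟩ := hpk
    obtain ⟨W2, hW2, hqW2, hcomb⟩ := hsa
    obtain ⟨τ, π, W, hp, hτ0, hWW⟩ := exists_par_in (hW1.inter hW2) ⟨hqW1, hqW2⟩ hman
    have hpp : PeakPt (dom τ U) 0 := peakPt_chart hO hU hp hτ0 hq
      (hWW.trans inter_subset_left) hP hPq hc hPle
    have hmaps : MapsTo τ (ball 0 1) W2 := fun e he => (hWW (hp.mapsσ he).2).2
    obtain ⟨F, hF, hFn, hF0⟩ := exists_chart_function_an hcomb hp.diffσ hmaps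
    have hdom : {e | e ∈ ball (0 : EuclideanSpace ℂ (Fin n)) 1 ∧ τ e ∈ U ∩ W2} = dom τ U := by
      ext e
      exact ⟨fun h => ⟨h.1, h.2.1⟩, fun h => ⟨h.1, h.2, hmaps h.1⟩⟩
    rw [hdom] at hF0
    obtain ⟨U1, h1, h2, h3, h4⟩ := hUS.siegel hp hpp hF hFn hF0
    exact ⟨n, U1, hn, h1, h2, h3, h4⟩

/-- A bounded relatively open subset of an affine variety has a peak point in its closure at which
the variety is smooth. -/
theorem exists_smooth_peak {N n : ℕ} {V O U : Set (EuclideanSpace ℂ (Fin N))}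
    (hZ : IsClosed V) (hU : U = V ∩ O)
    (hb : Bornology.IsBounded U) {G : EuclideanSpace ℂ (Fin N) → ℂ} (hG : Differentiable ℂ G)
    (hG0 : ∃ u ∈ U, G u ≠ 0)
    (hGm : ∀ z ∈ V, G z ≠ 0 → ManPt (EuclideanSpace ℂ (Fin n)) V z) :
    ∃ q ∈ closure U, ManPt (EuclideanSpace ℂ (Fin n)) V q ∧ IsPeakAt U q := by
  obtain ⟨u, hu, hGu⟩ := hG0
  have hUZ : U ⊆ V := by
    rw [hU]
    exact inter_subset_left
  have hclZ : closure U ⊆ V := closure_minimal hUZ hZ
  have hK : IsCompact (closure U) := hb.isCompact_closure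
  -- the radius and the parameter
  obtain ⟨R, hR0, hR⟩ : ∃ R : ℝ, 0 < R ∧ ∀ z ∈ closure U, ‖z‖ ≤ R := by
    obtain ⟨R, hR⟩ := hK.isBounded.subset_closedBall (0 : EuclideanSpace ℂ (Fin N))
    refine ⟨max R 1, lt_max_of_lt_right one_pos, fun z hz => ?_⟩
    have h1 := hR hz
    rw [mem_closedBall_zero_iff] at h1
    exact h1.trans (le_max_left _ _)
  obtain ⟨ε, hε, hεR⟩ : ∃ ε : ℝ, 0 < ε ∧ ε * R ^ 2 < ‖G u‖ ^ 2 := by
    have h1 : 0 < ‖G u‖ := norm_pos_iff.2 hGu
    refine ⟨‖G u‖ ^ 2 / (2 * R ^ 2), by positivity, ?_⟩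
    have h2 : ‖G u‖ ^ 2 / (2 * R ^ 2) * R ^ 2 = ‖G u‖ ^ 2 / 2 := by
      field_simp
    rw [h2]
    have h3 : 0 < ‖G u‖ ^ 2 := by positivity
    linarith
  -- the maximum point
  obtain ⟨q, hq, hmax⟩ := hK.exists_isMaxOn ⟨u, subset_closure hu⟩
    (f := fun z : EuclideanSpace ℂ (Fin N) => ‖G z‖ ^ 2 + ε * ‖z‖ ^ 2)
    ((hG.continuous.norm.pow 2).add (continuous_const.mul (continuous_norm.pow 2))).continuousOn
  have hmax' : ∀ z ∈ closure U, ‖G z‖ ^ 2 + ε * ‖z‖ ^ 2 ≤ ‖G q‖ ^ 2 + ε * ‖q‖ ^ 2 :=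
    fun z hz => hmax hz
  have hGq : G q ≠ 0 := by
    intro h0
    have h1 := hmax' u (subset_closure hu)
    rw [h0, norm_zero] at h1
    have h2 : ε * ‖q‖ ^ 2 ≤ ε * R ^ 2 :=
      mul_le_mul_of_nonneg_left (pow_le_pow_left₀ (norm_nonneg _) (hR q hq) 2) hε.le
    have h3 : 0 ≤ ε * ‖u‖ ^ 2 := by positivity
    nlinarith
  refine ⟨q, hq, hGm q (hclZ hq) hGq, univ, isOpen_univ, mem_univ _, ?_⟩
  -- the peak function
  set P0 : EuclideanSpace ℂ (Fin N) → ℂ := fun z => ((‖G q‖ ^ 2 + ε * ‖q‖ ^ 2 : ℝ) : ℂ) -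
    ((starRingEnd ℂ) (G q) * G z + (ε : ℂ) * inner ℂ q z) with hP0
  have hP0d : Differentiable ℂ P0 := by
    have h1 : Differentiable ℂ (fun z : EuclideanSpace ℂ (Fin N) => (inner ℂ q z : ℂ)) := by
      have : (fun z : EuclideanSpace ℂ (Fin N) => (inner ℂ q z : ℂ)) =
          fun z => innerSL ℂ q z := by
        funext z; exact (innerSL_apply_apply ℂ _ _).symm
      rw [this]
      fun_prop
    exact (((hG.const_mul _).add (h1.const_mul _))).const_sub _
  have hP0re : ∀ z, (P0 z).re = (‖G q‖ ^ 2 + ε * ‖q‖ ^ 2) -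
      (1 / 2) * ((‖G z‖ ^ 2 + ε * ‖z‖ ^ 2) + (‖G q‖ ^ 2 + ε * ‖q‖ ^ 2)) +
      (1 / 2) * ‖G z - G q‖ ^ 2 + (ε / 2) * ‖z - q‖ ^ 2 := by
    intro z
    have h1 := @norm_sub_sq ℂ (EuclideanSpace ℂ (Fin N)) _ _ _ q z
    have h2 := @norm_sub_sq ℂ ℂ _ _ _ (G q) (G z)
    have h3 : RCLike.re (inner ℂ q z) = (inner ℂ q z).re := rfl
    have h4 : RCLike.re (inner ℂ (G q) (G z)) = ((starRingEnd ℂ) (G q) * G z).re := by
      rw [RCLike.inner_apply, mul_comm]
      rfl
    rw [h3, norm_sub_rev] at h1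
    rw [h4, norm_sub_rev] at h2
    have h5 : (P0 z).re = (‖G q‖ ^ 2 + ε * ‖q‖ ^ 2) - (((starRingEnd ℂ) (G q) * G z).re +
        ε * (inner ℂ q z).re) := by
      rw [hP0]
      simp only [Complex.sub_re, Complex.add_re, Complex.ofReal_re, Complex.re_ofReal_mul]
    rw [h5, h1, h2]
    ring
  have hP0q : P0 q = 0 := by
    rw [hP0]
    have h1 : (starRingEnd ℂ) (G q) * G q = ((‖G q‖ ^ 2 : ℝ) : ℂ) := by
      rw [mul_comm, Complex.mul_conj, Complex.normSq_eq_norm_sq]
    have h2 : (inner ℂ q q : ℂ) = ((‖q‖ ^ 2 : ℝ) : ℂ) := by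
      rw [inner_self_eq_norm_sq_to_K]
      push_cast
      rfl
    simp only [h1, h2]
    push_cast
    ring
  refine ⟨P0, hP0d.differentiableOn, hP0q, ε / 2, by positivity, fun z hz => ?_⟩
  rw [hP0re]
  have h1 := hmax' z (subset_closure hz.1)
  have h2 : 0 ≤ ‖G z - G q‖ ^ 2 := sq_nonneg _
  linarith

/-- Bounded connected relatively open subsets of affine varieties with a cocompact group, which
are semianalytic at every point of their closure. -/
theorem semianalytic_scaled {N : ℕ} (I : Set (MvPolynomial (Fin N) ℂ))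
    {U O K : Set (EuclideanSpace ℂ (Fin N))} (hO : IsOpen O) (hU : U = zeroSet I ∩ O)
    (hUc : IsConnected U) (hb : Bornology.IsBounded U) (hS : IsSemianalytic U)
    (hK : IsCompact K) (hKU : K ⊆ U) (hco : CocompactHol U K) : Scaled U := by
  obtain ⟨n, G, hG, hG0, hGm⟩ := exists_good_poly' I hO hU hUc.nonempty
  obtain ⟨q, hq, hman, hpk⟩ := exists_smooth_peak (isClosed_zeroSet I) hU hb hG hG0 hGm
  exact local_scaled I hO hU hUc hb hK hKU hco hq hman hpk (hS q)

/-- From the conclusion of the scaling argument to bounded symmetric domains. -/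
theorem symmetric_of_scaled {N : ℕ}
    {U : Set (EuclideanSpace ℂ (Fin N))} (hUc : IsConnected U) (h : Scaled U) (Γ : Type*) [Group Γ] [MulAction Γ U] (hΓ : ActsHol Γ U)
    (hprop : ProperlyDiscontinuousSMul Γ U)
    (hcpt : CompactSpace (MulAction.orbitRel.Quotient Γ U)) :
    HasSymmetricModel U := by
  rcases h with ⟨U1, hU1, hbi⟩ | ⟨n, U1, hn, h1, h2, h3, k, D, B, σ, Ω, hσ, h4, h5, h6, h7, h8, h9⟩
  · subst hU1
    refine ⟨0, Set.univ, ⟨isOpen_univ, ?_, ?_, ?_⟩, hbi⟩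
    · rw [← Set.image_univ_of_surjective (Function.surjective_id)]
      exact (isConnected_singleton (x := (0 : EuclideanSpace ℂ (Fin 0)))).subset_closure
        (fun x _ => ⟨x, Set.mem_univ _, rfl⟩) (fun x _ => subset_closure (Subsingleton.elim _ _))
    · exact (Metric.isBounded_ball (x := (0 : EuclideanSpace ℂ (Fin 0))) (r := 1)).subset
        fun x _ => by
          rw [Subsingleton.elim x 0]
          exact Metric.mem_ball_self one_pos
    · intro x _
      exact ⟨id, ⟨differentiableOn_id, differentiableOn_id, fun _ h => h, fun _ h => h,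
        fun _ _ => rfl, fun _ _ => rfl⟩, rfl, 1, one_pos, fun y _ _ _ => Subsingleton.elim _ _⟩
  · obtain ⟨f, g, hfg⟩ := h3
    let _ := hfg.mulAction Γ
    have hc1 : IsConnected U1 := by
      have : U1 = f '' U := by
        ext y
        constructor
        · intro hy; exact ⟨g y, hfg.mapsTo_inv hy, hfg.right_inv y hy⟩
        · rintro ⟨x, hx, rfl⟩; exact hfg.mapsTo hx
      rw [this]
      exact hUc.image _ hfg.hol.continuousOn
    have hA := hfg.transport h1 hΓ
    have hC : CompactSpace (MulAction.orbitRel.Quotient Γ U1) := hfg.transport_compact hcpt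
    have hP : ProperlyDiscontinuousSMul Γ U1 := hfg.transport_proper hprop
    have : LocallyCompactSpace U1 := h1.isLocallyClosed.locallyCompactSpace
    have : ContinuousConstSMul Γ U1 := by
      constructor
      intro γ
      obtain ⟨φ, hφ, hφ2⟩ := hA γ
      rw [continuous_induced_rng]
      have h1 : Continuous (fun x : U1 => φ x) :=
        continuousOn_iff_continuous_domRestrict.1 hφ.continuousOn
      have h2 : (Subtype.val ∘ fun x : U1 => γ • x) = fun x : U1 => φ x := by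
        funext x
        exact (hφ2 x).symm
      rw [h2]
      exact h1
    exact ⟨n, U1, V.isBoundedSymmetricDomain_of_siegel h1 hc1 h2 hσ h4 h7 h8 hA
      (finite_of_properlyDiscontinuous hP) exists_isCompact_smul_mem, f, g, hfg⟩

/-- From the conclusion of the scaling argument to bounded and convex models. -/
theorem convex_of_scaled {N : ℕ} {U : Set (EuclideanSpace ℂ (Fin N))} (h : Scaled U) :
    HasConvexModel U := by
  rcases h with ⟨U1, hU1, hbi⟩ | ⟨n, U1, hn, h1, h2, h3, k, D, B, σ, Ω, hσ, h4, h5, h6, h7, h8, h9⟩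
  · refine ⟨0, U1, U1, ?_, ?_, ?_, ?_, hbi, hbi⟩
    · rw [hU1]; exact isOpen_univ
    · rw [hU1]
      exact (Metric.isBounded_ball (x := (0 : EuclideanSpace ℂ (Fin 0))) (r := 1)).subset
        fun x _ => by
          rw [Subsingleton.elim x 0]
          exact Metric.mem_ball_self one_pos
    · rw [hU1]; exact isOpen_univ
    · rw [hU1]; exact convex_univ
  · obtain ⟨f, g, hfg⟩ := h8
    exact ⟨n, U1, _, h1, h2, isOpen_siegel h4, h9, h3,
      h3.trans ⟨f, g, (Z.isBihol_iff h1 (isOpen_siegel h4)).2 hfg⟩⟩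

end Vale.Agent.P274.H959
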