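import Vale.Agent.P274.Bdl.B11
import Vale.Agent.P274.H959.Defs

/-! Semianalytic bounded subsets of affine varieties with cocompact groups; a local theorem. -/

open Filter Metric Set Topology

namespace Vale.Agent.P274.H959

open Vale.Agent.P274 Vale.Agent.P274.Z

/-! ### Semianalytic sets -/

theorem isAnalyticCombination_of_semialgebraic {n : ℕ} {S : Set (EuclideanSpace ℂ (Fin n))}
    (hS : IsSemialgebraic S) : IsAnalyticCombination univ S := by
  induction hS with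
  | pos p =>
    have h1 : {z : EuclideanSpace ℂ (Fin n) | 0 < realEval p z} =
        {z | z ∈ (univ : Set (EuclideanSpace ℂ (Fin n))) ∧ 0 < realEval p z} := by
      ext z; simp
    rw [h1]
    exact IsAnalyticCombination.pos _ fun x _ => analyticAt_realEval p x
  | compl _ ih =>
    rw [compl_eq_univ_sdiff]
    exact ih.compl
  | inter _ _ ih1 ih2 => exact ih1.inter ih2

theorem isSemianalytic_of_semialgebraic {n : ℕ} {S : Set (EuclideanSpace ℂ (Fin n))}
    (hS : IsSemialgebraic S) : IsSemianalytic S := fun x =>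
  ⟨univ, isOpen_univ, mem_univ x, by
    rw [inter_univ]; exact isAnalyticCombination_of_semialgebraic hS⟩

/-- A semianalytic set is given, in a holomorphic parametrization, by an analytic function. -/
theorem exists_chart_function_an {E : Type*} [NormedAddCommGroup E] [NormedSpace ℂ E]
    [FiniteDimensional ℂ E] {N : ℕ} {W S : Set (EuclideanSpace ℂ (Fin N))}
    (hS : IsAnalyticCombination W S) {σ : E → EuclideanSpace ℂ (Fin N)}
    (hσ : DifferentiableOn ℂ σ (ball 0 1)) (hσW : MapsTo σ (ball 0 1) W) :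
    ∃ F : E → ℝ, AnalyticOnNhd ℝ F (ball 0 1) ∧
      (∀ x ∈ ball (0 : E) 1, ¬ ∀ᶠ y in 𝓝 x, F y = 0) ∧
      ∀ x ∈ frontier {e | e ∈ ball (0 : E) 1 ∧ σ e ∈ S}, x ∈ ball (0 : E) 1 → F x = 0 := by
  have hσa : AnalyticOnNhd ℝ σ (ball 0 1) :=
    (Vale.Agent.P274.HolOs.analyticOnNhd_of_differentiableOn isOpen_ball hσ).restrictScalars
  induction hS with
  | pos f hf =>
    have hfa : AnalyticOnNhd ℝ (fun e => f (σ e)) (ball 0 1) := fun x hx =>
      (hf (σ x) (hσW hx)).comp (hσa x hx)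
    by_cases hz : ∃ x ∈ ball (0 : E) 1, ∀ᶠ y in 𝓝 x, f (σ y) = 0
    · obtain ⟨x, hx, hxz⟩ := hz
      have h1 := hfa.eqOn_zero_of_preconnected_of_eventuallyEq_zero
        (convex_ball (0 : E) 1).isPreconnected hx hxz
      refine ⟨fun _ => 1, analyticOnNhd_const, fun x _ h => one_ne_zero h.self_of_nhds,
        fun x hx => ?_⟩
      have h2 : {e | e ∈ ball (0 : E) 1 ∧ σ e ∈ {z | z ∈ W ∧ 0 < f z}} = ∅ := by
        ext e
        simp only [mem_ofPred_eq, mem_empty_iff_false, iff_false, not_and, not_lt]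
        intro he _
        exact (h1 he).le
      rw [h2, frontier_empty] at hx
      exact absurd hx (notMem_empty x)
    · refine ⟨fun e => f (σ e), hfa, fun x hx h => hz ⟨x, hx, h⟩, fun x hx hxb => ?_⟩
      rw [peakchart_frontier_iff] at hx
      have hc : ContinuousAt (fun e => f (σ e)) x := (hfa x hxb).continuousAt
      have hbx : ∀ᶠ y in 𝓝 x, y ∈ ball (0 : E) 1 := isOpen_ball.mem_nhds hxb
      rcases lt_trichotomy (f (σ x)) 0 with h | h | h
      · obtain ⟨y, hy1, hy2⟩ := (hx.1.and_eventually (hc.eventually_lt_const h)).exists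
        exact absurd hy1.2.2 (not_lt.2 hy2.le)
      · exact h
      · obtain ⟨y, hy1, hy2, hy3⟩ := (hx.2.and_eventually
          ((hc.eventually_const_lt h).and hbx)).exists
        exact absurd ⟨hy3, hσW hy3, hy2⟩ hy1
  | compl _ ih =>
    obtain ⟨F, hF, hF0, hF1⟩ := ih
    refine ⟨F, hF, hF0, fun x hx hxb => hF1 x ?_ hxb⟩
    rw [peakchart_frontier_iff] at hx ⊢
    have hbx : ∀ᶠ y in 𝓝 x, y ∈ ball (0 : E) 1 := isOpen_ball.mem_nhds hxb
    refine ⟨?_, ?_⟩
    · refine (hx.2.and_eventually hbx).mono fun y hy => ?_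
      by_contra hcon
      exact hy.1 ⟨hy.2, hσW hy.2, fun hyS => hcon ⟨hy.2, hyS⟩⟩
    · exact hx.1.mono fun y hy hy2 => hy.2.2 hy2.2
  | @inter S1 S2 _ _ ih1 ih2 =>
    obtain ⟨F, hF, hF0, hF1⟩ := ih1
    obtain ⟨F', hF', hF0', hF1'⟩ := ih2
    refine ⟨fun e => F e * F' e, hF.mul hF', fun x hx h => ?_, fun x hx hxb => ?_⟩
    · have h1 : ∃ᶠ y in 𝓝 x, F y ≠ 0 := Filter.not_eventually.1 (hF0 x hx)
      have hbx : ∀ᶠ y in 𝓝 x, y ∈ ball (0 : E) 1 := isOpen_ball.mem_nhds hx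
      obtain ⟨y, hy1, hy2, hy3⟩ := (h1.and_eventually (h.eventually_nhds.and hbx)).exists
      have hc : ContinuousAt F y := (hF y hy3).continuousAt
      refine hF0' y hy3 ?_
      filter_upwards [hy2, hc.eventually_ne hy1] with w hw1 hw2
      exact (mul_eq_zero.1 hw1).resolve_left hw2
    · have h1 : {e | e ∈ ball (0 : E) 1 ∧ σ e ∈ S1 ∩ S2} =
          {e | e ∈ ball (0 : E) 1 ∧ σ e ∈ S1} ∩ {e | e ∈ ball (0 : E) 1 ∧ σ e ∈ S2} := by
        ext e
        exact ⟨fun h => ⟨⟨h.1, h.2.1⟩, ⟨h.1, h.2.2⟩⟩, fun h => ⟨h.1.1, h.1.2, h.2.2⟩⟩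
      rw [h1] at hx
      rcases frontier_inter_subset _ _ hx with ⟨h2, -⟩ | ⟨-, h2⟩
      · simp [hF1 x h2 hxb]
      · simp [hF1' x h2 hxb]

/-! ### Charts -/

/-- A manifold point has a parametrization inside a prescribed neighbourhood. -/
theorem exists_par_in {X E : Type*} [NormedAddCommGroup X] [NormedSpace ℂ X]
    [NormedAddCommGroup E] [NormedSpace ℂ E] {V O : Set X} (hO : IsOpen O) {x : X} (hx : x ∈ O)
    (h : ManPt E V x) :
    ∃ (σ : E → X) (π : X → E) (W : Set X), Par V σ π W ∧ σ 0 = x ∧ W ⊆ O := by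
  obtain ⟨σ, π, W, h, hσ⟩ := h.inter_open hO hx
  refine ⟨σ, π, W ∩ O, ⟨h.isOpen.inter hO, h.diffσ, h.diffπ.mono inter_subset_left, ?_, ?_,
    h.left, ?_⟩, hσ, inter_subset_right⟩
  · exact fun e he => ⟨(h.mapsσ he).1.1, (h.mapsσ he).2, (h.mapsσ he).1.2⟩
  · exact fun z hz => h.mapsπ ⟨⟨hz.1, hz.2.2⟩, hz.2.1⟩
  · exact fun z hz => h.right z ⟨⟨hz.1, hz.2.2⟩, hz.2.1⟩

/-- Points of an open set are manifold points. -/
theorem manPt_open {E : Type*} [NormedAddCommGroup E] [NormedSpace ℂ E] {B : Set E}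
    (hB : IsOpen B) {x : E} (hx : x ∈ B) : ManPt E B x := by
  have h : ManPt E (univ : Set E) x := by
    refine ⟨fun e => x + e, fun z => z - x, ball x 1, ⟨isOpen_ball, ?_, ?_, ?_, ?_, ?_, ?_⟩, ?_⟩
    · exact (differentiable_id.const_add x).differentiableOn
    · exact (differentiable_id.sub_const x).differentiableOn
    · intro e he
      refine ⟨mem_univ _, ?_⟩
      rw [mem_ball, dist_eq_norm, add_sub_cancel_left]
      simpa using he
    · intro z hz
      rw [mem_ball_zero_iff]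
      have := hz.2
      rwa [mem_ball, dist_eq_norm] at this
    · intro e _
      exact add_sub_cancel_left x e
    · intro z _
      exact add_sub_cancel x z
    · exact add_zero x
  have h2 := h.inter_open hB hx
  rwa [univ_inter] at h2

theorem manPt_of_smooth {n : ℕ} {V : Set (EuclideanSpace ℂ (Fin n))}
    {q : EuclideanSpace ℂ (Fin n)} (hq : q ∈ V) (h : IsSmoothAt V q) :
    ∃ m : ℕ, ManPt (EuclideanSpace ℂ (Fin m)) V q := by
  obtain ⟨W, hW, hqW, m, B, hB, f, g, hfg⟩ := h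
  have h1 := hfg.symm.manPt (hfg.mapsTo ⟨hq, hqW⟩) (manPt_open hB (hfg.mapsTo ⟨hq, hqW⟩))
  rw [hfg.left_inv q ⟨hq, hqW⟩] at h1
  exact ⟨m, h1.of_inter_open hW⟩

/-- Peak points in charts. -/
theorem peakPt_chart {X E : Type*} [NormedAddCommGroup X] [NormedSpace ℂ X]
    [NormedAddCommGroup E] [InnerProductSpace ℂ E]
    [FiniteDimensional ℂ E] [Nontrivial E] {V O U : Set X} (hO : IsOpen O) (hU : U = V ∩ O)
    {σ : E → X} {π : X → E} {W : Set X} (hPar : Par V σ π W) {q : X} (hσ0 : σ 0 = q)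
    (hq : q ∈ closure U) {P : X → ℂ} {W1 : Set X} (hWW : W ⊆ W1) (hP : DifferentiableOn ℂ P W1)
    (hPq : P q = 0) {ε : ℝ} (hε : 0 < ε)
    (hPle : ∀ z ∈ U ∩ W1, ε * ‖z - q‖ ^ 2 ≤ (P z).re) : PeakPt (dom σ U) 0 := by
  have hUZ : U ⊆ V := by
    rw [hU]
    exact inter_subset_left
  have h01 : (0 : E) ∈ ball (0 : E) 1 := mem_ball_self one_pos
  have hqW : q ∈ V ∩ W := by
    rw [← hσ0]
    exact hPar.mapsσ h01
  have hπq : π q = 0 := by
    rw [← hσ0]
    exact hPar.left 0 h01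
  obtain ⟨L, hL, hLip⟩ : ∃ L : ℝ, 0 < L ∧ ∀ᶠ e in 𝓝 (0 : E), ‖e‖ ≤ L * ‖σ e - q‖ := by
    have hπd : DifferentiableAt ℂ π q :=
      hPar.diffπ.differentiableAt (hPar.isOpen.mem_nhds hqW.2)
    obtain ⟨L, hL, h1⟩ := (hπd.isBigO_sub).exists_pos
    refine ⟨L, hL, ?_⟩
    rw [Asymptotics.IsBigOWith] at h1
    have hσc : ContinuousAt σ 0 :=
      (hPar.diffσ.differentiableAt (isOpen_ball.mem_nhds h01)).continuousAt
    have h2 : Tendsto σ (𝓝 0) (𝓝 q) := by
      have := hσc.tendsto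
      rwa [hσ0] at this
    filter_upwards [h2.eventually h1, isOpen_ball.mem_nhds h01] with e he hee
    rw [hπq, sub_zero, hPar.left e hee] at he
    exact he
  obtain ⟨δ, hδ, hδ1⟩ := Metric.eventually_nhds_iff_ball.1
    (hLip.and (isOpen_ball.eventually_mem h01))
  refine peakPt_of_localMax (hPar.isOpen_dom hO hU) (a := 0) (q := 0)
    (c := ε / L ^ 2) (r := δ) (Q := fun e => P (σ e)) (by positivity) hδ ?_ ?_ ?_
  · exact hP.comp (hPar.diffσ.mono fun e he => (hδ1 e he).2)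
      fun e he => hWW (hPar.mapsσ (hδ1 e he).2).2
  · -- `0` is in the closure
    have h1 : q ∈ closure (U ∩ W) := by
      have h2 := hPar.isOpen.inter_closure (t := U) ⟨hqW.2, hq⟩
      rwa [inter_comm] at h2
    have h3 : ContinuousWithinAt π (U ∩ W) q :=
      ((hPar.diffπ.differentiableAt (hPar.isOpen.mem_nhds hqW.2)).continuousAt).continuousWithinAt
    have h4 := h3.mem_closure h1 (t := dom σ U) (fun z hz => by
      have hz' : z ∈ V ∩ W := ⟨hUZ hz.1, hz.2⟩
      refine ⟨hPar.mapsπ hz', ?_⟩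
      rw [hPar.right z hz']
      exact hz.1)
    rwa [hπq] at h4
  · intro e he heδ
    obtain ⟨h1, h2⟩ := hδ1 e heδ
    have h3 := hPle (σ e) ⟨he.2, hWW (hPar.mapsσ h2).2⟩
    have h4 : ‖e‖ ^ 2 ≤ (L * ‖σ e - q‖) ^ 2 := pow_le_pow_left₀ (norm_nonneg _) h1 2
    have h5 : ε / L ^ 2 * ‖e‖ ^ 2 ≤ ε * ‖σ e - q‖ ^ 2 := by
      calc ε / L ^ 2 * ‖e‖ ^ 2 ≤ ε / L ^ 2 * (L * ‖σ e - q‖) ^ 2 :=
            mul_le_mul_of_nonneg_left h4 (by positivity)
        _ = ε * ‖σ e - q‖ ^ 2 := by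
            field_simp
    have h6 : (P (σ 0)).re = 0 := by rw [hσ0, hPq, Complex.zero_re]
    simp only [sub_zero, sub_self, norm_zero]
    rw [h6]
    linarith

/-- A farthest point is a peak point. -/
theorem isPeakAt_of_farthest {n : ℕ} {U : Set (EuclideanSpace ℂ (Fin n))}
    {a q : EuclideanSpace ℂ (Fin n)} (h : ∀ z ∈ U, ‖z - a‖ ≤ ‖q - a‖) : IsPeakAt U q := by
  refine ⟨univ, isOpen_univ, mem_univ _, fun z => inner ℂ (q - a) (q - z), ?_, ?_, 1 / 2,
    by norm_num, ?_⟩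
  · have : (fun z : EuclideanSpace ℂ (Fin n) => (inner ℂ (q - a) (q - z) : ℂ)) =
        fun z => innerSL ℂ (q - a) (q - z) := by
      funext z; exact (innerSL_apply_apply ℂ _ _).symm
    rw [this]
    exact ((innerSL ℂ (q - a)).differentiable.comp
      (differentiable_id.const_sub q)).differentiableOn
  · simp
  · intro z hz
    have h1 := norm_sub_sq_identity z q a
    have h2 := h z hz.1
    have h3 : ‖z - a‖ ^ 2 ≤ ‖q - a‖ ^ 2 := pow_le_pow_left₀ (norm_nonneg _) h2 2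
    have h4 : (inner ℂ (q - a) (q - z)).re = -(inner ℂ (q - a) (z - q)).re := by
      rw [← neg_sub z q, inner_neg_right, Complex.neg_re]
    rw [h4]
    linarith

end Vale.Agent.P274.H959
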